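import Vale.Agent.H61.P226.Main

/-!
# P226 (Gaussian propeller conjecture): a universal bound and the small-cell case

For pairwise disjoint measurable sets `A_1, …, A_k ⊆ ℝ^d` (in particular for every measurable
partition of `ℝ^d` into `k` cells), with `γ_d` the standard Gaussian measure and
`z(A) = ∫_A x dγ_d`:

* `∑_i |z(A_i)|^2 ≤ 81/200` for all `d` and `k`;
* if `γ_d(A_i) ≤ 1/7` for every `i`, then `∑_i |z(A_i)|^2 ≤ 9/(8π)`.
-/

open MeasureTheory ProbabilityTheory

namespace Vale.Agent.Results.P226.A_MomentBounds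

theorem result (d k : ℕ) (A : Fin k → Set (EuclideanSpace ℝ (Fin d)))
    (hA : ∀ i, MeasurableSet (A i)) (hdisj : Pairwise (Function.onFun Disjoint A)) :
    (∑ i, ‖∫ x in A i, x ∂(stdGaussian (EuclideanSpace ℝ (Fin d)))‖ ^ 2 ≤ 81 / 200) ∧
      ((∀ i, (stdGaussian (EuclideanSpace ℝ (Fin d))).real (A i) ≤ 1 / 7) →
        ∑ i, ‖∫ x in A i, x ∂(stdGaussian (EuclideanSpace ℝ (Fin d)))‖ ^ 2 ≤
          9 / (8 * Real.pi)) :=
  ⟨Vale.Agent.H61.P226.propeller_universal A hA hdisj,
    fun hsmall => Vale.Agent.H61.P226.propeller_small_cells A hA hdisj hsmall⟩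

end Vale.Agent.Results.P226.A_MomentBounds
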