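import Vale.Agent.H61.P226.Main
import Vale.Agent.H61.P226.Triples

/-!
# P226 (Gaussian propeller conjecture): the bounds proved here, in one statement

`γ_d` is the standard Gaussian measure on `ℝ^d` and `z(A) = ∫_A x dγ_d`.

1. For pairwise disjoint measurable sets `A_1, …, A_k`: `∑ |z(A_i)|^2 ≤ 81/200`, and
   `∑ |z(A_i)|^2 ≤ 9/(8π)` if `γ_d(A_i) ≤ 1/7` for every `i`.
2. If `3m` pairwise disjoint measurable sets `A l a` (`l < m`, `a < 3`) satisfy
   `z(A l 0) + z(A l 1) + z(A l 2) = 0` for every `l`, then `∑ |z(A l a)|^2 ≤ 9/(8π)`.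
3. If `2m` pairwise disjoint measurable sets `A l a` (`l < m`, `a < 2`) satisfy
   `z(A l 1) = -z(A l 0)` for every `l`, then `∑ |z(A l a)|^2 ≤ 1/π`.
-/

open MeasureTheory ProbabilityTheory

namespace Vale.Agent.Results.P226.C_CombinedBounds

theorem result (d : ℕ) :
    (∀ (k : ℕ) (A : Fin k → Set (EuclideanSpace ℝ (Fin d))),
      (∀ i, MeasurableSet (A i)) → Pairwise (Function.onFun Disjoint A) →
      (∑ i, ‖∫ x in A i, x ∂(stdGaussian (EuclideanSpace ℝ (Fin d)))‖ ^ 2 ≤ 81 / 200) ∧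
        ((∀ i, (stdGaussian (EuclideanSpace ℝ (Fin d))).real (A i) ≤ 1 / 7) →
          ∑ i, ‖∫ x in A i, x ∂(stdGaussian (EuclideanSpace ℝ (Fin d)))‖ ^ 2 ≤
            9 / (8 * Real.pi))) ∧
    (∀ (m : ℕ) (A : Fin m → Fin 3 → Set (EuclideanSpace ℝ (Fin d))),
      (∀ l a, MeasurableSet (A l a)) →
      Pairwise (Function.onFun Disjoint (fun p : Fin m × Fin 3 => A p.1 p.2)) →
      (∀ l, (∫ x in A l 0, x ∂(stdGaussian (EuclideanSpace ℝ (Fin d)))) +
          (∫ x in A l 1, x ∂(stdGaussian (EuclideanSpace ℝ (Fin d)))) +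
          (∫ x in A l 2, x ∂(stdGaussian (EuclideanSpace ℝ (Fin d)))) = 0) →
      ∑ l, ∑ a, ‖∫ x in A l a, x ∂(stdGaussian (EuclideanSpace ℝ (Fin d)))‖ ^ 2 ≤
        9 / (8 * Real.pi)) ∧
    (∀ (m : ℕ) (A : Fin m → Fin 2 → Set (EuclideanSpace ℝ (Fin d))),
      (∀ l a, MeasurableSet (A l a)) →
      Pairwise (Function.onFun Disjoint (fun p : Fin m × Fin 2 => A p.1 p.2)) →
      (∀ l, (∫ x in A l 1, x ∂(stdGaussian (EuclideanSpace ℝ (Fin d)))) =
          -∫ x in A l 0, x ∂(stdGaussian (EuclideanSpace ℝ (Fin d)))) →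
      ∑ l, ∑ a, ‖∫ x in A l a, x ∂(stdGaussian (EuclideanSpace ℝ (Fin d)))‖ ^ 2 ≤
        1 / Real.pi) :=
  ⟨fun _ A hA hdisj => ⟨Vale.Agent.H61.P226.propeller_universal A hA hdisj,
      fun hsmall => Vale.Agent.H61.P226.propeller_small_cells A hA hdisj hsmall⟩,
    fun _ A hA hdisj hzero => Vale.Agent.H61.P226.propeller_zero_sum_triples A hA hdisj hzero,
    fun _ A hA hdisj hanti => Vale.Agent.H61.P226.propeller_antipodal_pairs A hA hdisj hanti⟩

end Vale.Agent.Results.P226.C_CombinedBounds
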